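import Vale.Agent.P216.Ch2.Ns
import Mathlib

/-!
# Theorem B of P216 (note 11516), block [WANG] = section 1c: persistence modules

`PM k` = a persistence module over the levels `t > 0` (contravariant: restriction maps from the
level `t` to the level `s ≤ t`).  `Intl A B c` = a natural interleaving with shift `c`.
`PM.Fam A` = the compatible families (global classes).
-/

namespace Vale.Agent.P216.Ch2.H901

/-- A persistence module over the levels `t > 0`. -/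
structure PM (k : Type) [Field k] where
  V : ℝ → Type
  [ag : ∀ t, AddCommGroup (V t)]
  [mo : ∀ t, Module k (V t)]
  /-- restriction from the level `t` to the level `s` -/
  ρ : ∀ s t, 0 < s → s ≤ t → V t →ₗ[k] V s
  ρ_refl : ∀ s hs (h : s ≤ s) x, ρ s s hs h x = x
  ρ_comp : ∀ r s t hr hs (h₁ : r ≤ s) (h₂ : s ≤ t) (h₃ : r ≤ t) x,
    ρ r s hr h₁ (ρ s t hs h₂ x) = ρ r t hr h₃ x

attribute [instance] PM.ag PM.mo

variable {k : Type} [Field k]

namespace PM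

/-- The compatible families over the levels `t > 0`. -/
structure Fam (A : PM k) where
  z : ∀ t, 0 < t → A.V t
  comp : ∀ s t (hs : 0 < s) (h : s ≤ t), A.ρ s t hs h (z t (hs.trans_le h)) = z s hs

/-- The restriction `A t → A s` is zero if `s + B ≤ t`. -/
def Eph (A : PM k) (B : ℝ) : Prop :=
  ∀ s t (hs : 0 < s) (h : s ≤ t), s + B ≤ t → ∀ x, A.ρ s t hs h x = 0

/-- The restriction `A t → A s` has values in the line of the family `o` if `s + B ≤ t`. -/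
def Line (A : PM k) (o : A.Fam) (B : ℝ) : Prop :=
  ∀ s t (hs : 0 < s) (h : s ≤ t), s + B ≤ t → ∀ x, ∃ a : k, A.ρ s t hs h x = a • o.z s hs

/-- Bounded bars: what survives from `s + B` to `s` comes from compatible families. -/
def BFB (A : PM k) (B : ℝ) : Prop :=
  ∀ s t (hs : 0 < s) (h : s ≤ t), s + B ≤ t → ∀ x, ∃ o : A.Fam, A.ρ s t hs h x = o.z s hs

end PM

/-- A natural interleaving with shift `c`. -/
structure Intl (A B : PM k) (c : ℝ) where
  f : ∀ s t, 0 < s → s + c ≤ t → A.V t →ₗ[k] B.V s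
  g : ∀ s t, 0 < s → s + c ≤ t → B.V t →ₗ[k] A.V s
  f_nat : ∀ s t s' t' hs ht hs' (h : s + c ≤ t) (h₁ : s' ≤ s) (h₂ : t ≤ t') (h₃ : s' + c ≤ t') x,
    B.ρ s' s hs' h₁ (f s t hs h (A.ρ t t' ht h₂ x)) = f s' t' hs' h₃ x
  g_nat : ∀ s t s' t' hs ht hs' (h : s + c ≤ t) (h₁ : s' ≤ s) (h₂ : t ≤ t') (h₃ : s' + c ≤ t') x,
    A.ρ s' s hs' h₁ (g s t hs h (B.ρ t t' ht h₂ x)) = g s' t' hs' h₃ x
  gf : ∀ r s t hr hs (h₁ : r + c ≤ s) (h₂ : s + c ≤ t) (h₃ : r ≤ t) x,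
    g r s hr h₁ (f s t hs h₂ x) = A.ρ r t hr h₃ x
  fg : ∀ r s t hr hs (h₁ : r + c ≤ s) (h₂ : s + c ≤ t) (h₃ : r ≤ t) x,
    f r s hr h₁ (g s t hs h₂ x) = B.ρ r t hr h₃ x

/-- **The Wang data**: `G q` = `H^q` of the based loops, `X q` = `H^q` of the free loops,
`Q q` = `H^q` of the free loops over `D₋` (interleaved with `G q`), `P q` = relative `H^q` of
(free loops, free loops over `D₋`) (interleaved with `G (q - n)`), `n = m + 1` = dimension. -/
structure Wang (m : ℕ) (G X : ℕ → PM k) (c : ℝ) where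
  c0 : 0 ≤ c
  P : ℕ → PM k
  Q : ℕ → PM k
  α : ∀ q t, 0 < t → (P q).V t →ₗ[k] (X q).V t
  β : ∀ q t, 0 < t → (X q).V t →ₗ[k] (Q q).V t
  δ : ∀ q t, 0 < t → (Q q).V t →ₗ[k] (P (q + 1)).V t
  α_nat : ∀ q s t hs ht (h : s ≤ t) x, (X q).ρ s t hs h (α q t ht x) = α q s hs ((P q).ρ s t hs h x)
  β_nat : ∀ q s t hs ht (h : s ≤ t) x, (Q q).ρ s t hs h (β q t ht x) = β q s hs ((X q).ρ s t hs h x)
  δ_nat : ∀ q s t hs ht (h : s ≤ t) x,
    (P (q + 1)).ρ s t hs h (δ q t ht x) = δ q s hs ((Q q).ρ s t hs h x)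
  ex1 : ∀ q t ht, Function.Exact (α q t ht) (β q t ht)
  ex2 : ∀ q t ht, Function.Exact (β q t ht) (δ q t ht)
  ex3 : ∀ q t ht, Function.Exact (δ q t ht) (α (q + 1) t ht)
  /-- `Q` is interleaved with `G` -/
  iQ : ∀ q, Intl (Q q) (G q) c
  /-- `P` is interleaved with `G`, with a shift of the degree by `n = m + 1` -/
  iP : ∀ q, Intl (P (q + (m + 1))) (G q) c
  P0 : ∀ q, q ≤ m → (P q).Eph (2 * c)

/-- **The based loops** (output of the crossing-swap argument): `om j` is the global class of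
degree `m * j`, `m = n - 1`; bars shorter than `B` otherwise; births in steps `≤ C`. -/
structure Based (m : ℕ) (G : ℕ → PM k) (B C B0 : ℝ) where
  om : ∀ j, (G (m * j)).Fam
  van : ∀ q, ¬ m ∣ q → (G q).Eph B
  line : ∀ j, (G (m * j)).Line (om j) B
  /-- (i): `C_{j+1} ≥ C_j - C` -/
  down : ∀ j s t (hs : 0 < s) (ht : 0 < t), s + C ≤ t → (om j).z t ht = 0 → (om (j + 1)).z s hs = 0
  /-- (ii): `C_{j+1} ≤ C_j + C` -/
  up : ∀ j s t (hs : 0 < s) (ht : 0 < t), s + C ≤ t → (om j).z s hs ≠ 0 → (om (j + 1)).z t ht ≠ 0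
  om0 : ∀ t (ht : 0 < t), B0 ≤ t → (om 0).z t ht ≠ 0

/-- **The free loops** (output of this block). `om j` extends to the free loops iff `cf j = 0`;
`x j` = the extension, `y j` = the image of `om j` under `H^{q}(Ω) → H^{q+n}(ΛM)`, of degree
`m * j + n = m * (j + 1) + 1`. -/
structure Free {m : ℕ} {G X : ℕ → PM k} {B C B0 c : ℝ} (w : Wang m G X c)
    (b : Based m G B C B0) (B' : ℝ) where
  cf : ℕ → k
  cf0 : cf 0 = 0
  /-- `th (om (j+1)) = cf (j+1) • om j` -/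
  th : ∀ j r s t (hr : 0 < r) (hs : 0 < s) (ht : 0 < t) (h₁ : r + c ≤ s) (h₂ : s + c ≤ t),
    (w.iP (m * j)).f r s hr h₁ (w.δ (m * (j + 1)) s hs ((w.iQ (m * (j + 1))).g s t hs h₂
      ((b.om (j + 1)).z t ht))) = cf (j + 1) • (b.om j).z r hr
  x : ∀ j, (X (m * j)).Fam
  y : ∀ j, (X (m * j + (m + 1))).Fam
  /-- `x j` restricts to `om j` on the based loops -/
  x_om : ∀ j, cf j = 0 → ∀ s t hs ht (h : s + c ≤ t),
    (w.iQ (m * j)).f s t hs h (w.β _ t ht ((x j).z t ht)) = (b.om j).z s hs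
  y_def : ∀ j s t hs ht (h : s + c ≤ t),
    (y j).z s hs = w.α _ s hs ((w.iP (m * j)).g s t hs h ((b.om j).z t ht))
  /-- all other degrees: no global class, short bars -/
  eph : ∀ q, ¬ m ∣ q → (∀ j, q ≠ m * j + (m + 1)) → (X q).Eph B'
  line_x : ∀ j, (X (m * j)).Line (x j) B'
  line_y : ∀ j, (X (m * j + (m + 1))).Line (y j) B'
  x_zero : ∀ j, cf j ≠ 0 → ∀ t ht, (x j).z t ht = 0
  y_zero : ∀ j, cf (j + 1) ≠ 0 → ∀ t ht, (y j).z t ht = 0
  /-- births of the `x j` are close to the births of the `om j` -/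
  x_ne : ∀ j, cf j = 0 → ∀ s t hs ht, s + B' ≤ t → (b.om j).z s hs ≠ 0 → (x j).z t ht ≠ 0
  om_ne : ∀ j s t hs ht, s + B' ≤ t → (x j).z s hs ≠ 0 → (b.om j).z t ht ≠ 0

/-- **W4**: the algebra of section 1c. The constant `B'` depends only on `B, C, c` (and not on the
field). -/
def PropW4 : Prop := ∀ (m : ℕ) (_ : 2 ≤ m) (B C B0 c : ℝ) (_ : 0 ≤ B) (_ : 0 ≤ C) (_ : 0 ≤ c),
  ∃ B' : ℝ, ∀ (k : Type) [Field k] (G X : ℕ → PM k) (w : Wang m G X c) (b : Based m G B C B0),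
    Nonempty (Free w b B')

end Vale.Agent.P216.Ch2.H901
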