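import Vale.Agent.P216.Ch2.Ns
import Vale.Agent.P216.Ch2.AS.MVSets
import Vale.Agent.P216.Ch2.H901.PM

/-!
# Space level input of the Wang sequence (note 11516, section 1c)

* `Hp A A' B B' f g`: `f` and `g` are homotopic as maps of pairs `(A, A') → (B, B')` (uniformly
  continuous homotopy).
* `SpIntl`: two increasing families of pairs are interleaved with shift `c`, up to homotopy.
* `cub n Z`, `bdc n Z`: the pair `Z × (I^n, ∂I^n)` in the type `Cu E n = (..(E × ℝ) × ..) × ℝ`.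
* `Triv`: the trivialisations of the free loops over the discs `D₊`, `D₋` (input for `Wang`).

No symmetries: index type `Empty`, as in `B64/Contract.lean` (`tr E`, `on k` are `a0 E`, `c0 k`).
-/

open Set

namespace Vale.Agent.P216.Ch2.H901

open Vale.Agent.P216.AS Vale.Agent.P216.Ch2.AS

/-- No symmetry. -/
abbrev tr (E : Type) : Empty → E → E := fun e => e.elim

/-- No scalar. -/
abbrev on (k : Type) : Empty → k := fun e => e.elim

section

variable {E E' : Type} [PseudoMetricSpace E] [PseudoMetricSpace E']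

/-- Homotopic uniformly continuous maps of pairs `(A, A') → (B, B')`. -/
def Hp (A A' : Set E) (B B' : Set E') (f g : E → E') : Prop :=
  ∃ D : ℝ → E → E', IsHtpy (tr E) (tr E') A B D ∧ (∀ s ∈ Icc (0 : ℝ) 1, MapsTo (D s) A' B') ∧
    EqOn (D 0) f A ∧ EqOn (D 1) g A

/-- Two increasing families of pairs `(A t, A' t)`, `(B t, B' t)`, `t > 0`, are interleaved with
shift `c`, up to homotopy. -/
structure SpIntl (A A' : ℝ → Set E) (B B' : ℝ → Set E') (c : ℝ) where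
  f : ℝ → E → E'
  g : ℝ → E' → E
  f_map : ∀ t, 0 < t → IsMap (tr E) (tr E') (A t) (B (t + c)) (f t)
  f_sub : ∀ t, 0 < t → MapsTo (f t) (A' t) (B' (t + c))
  g_map : ∀ t, 0 < t → IsMap (tr E') (tr E) (B t) (A (t + c)) (g t)
  g_sub : ∀ t, 0 < t → MapsTo (g t) (B' t) (A' (t + c))
  /-- `f t` restricted to `A s` is homotopic to `f s` -/
  f_nat : ∀ s t, 0 < s → s ≤ t → Hp (A s) (A' s) (B (t + c)) (B' (t + c)) (f s) (f t)
  g_nat : ∀ s t, 0 < s → s ≤ t → Hp (B s) (B' s) (A (t + c)) (A' (t + c)) (g s) (g t)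
  gf : ∀ t, 0 < t → Hp (A t) (A' t) (A (t + c + c)) (A' (t + c + c)) id (g (t + c) ∘ f t)
  fg : ∀ t, 0 < t → Hp (B t) (B' t) (B (t + c + c)) (B' (t + c + c)) id (f (t + c) ∘ g t)

end

/-- The type `(..(E × ℝ) × ..) × ℝ`. -/
def Cu (E : Type) : ℕ → Type
  | 0 => E
  | n + 1 => Cu E n × ℝ

instance instCu {E : Type} [h : MetricSpace E] : ∀ n, MetricSpace (Cu E n)
  | 0 => h
  | n + 1 => by
    letI := instCu (E := E) n
    exact inferInstanceAs (MetricSpace (Cu E n × ℝ))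

/-- `Z × I^n`. -/
def cub {E : Type} : ∀ (n : ℕ) (_ : Set E), Set (Cu E n)
  | 0, Z => Z
  | n + 1, Z => (cub n Z) ×ˢ Icc (0 : ℝ) 1

/-- `Z × ∂I^n`. -/
def bdc {E : Type} : ∀ (n : ℕ) (_ : Set E), Set (Cu E n)
  | 0, _ => ∅
  | n + 1, Z => (cub n Z) ×ˢ {0, 1} ∪ (bdc n Z) ×ˢ Icc (0 : ℝ) 1

/-- The part of `X` over `D`. -/
def ovr {E M : Type} (ev : E → M) (X : ℝ → Set E) (D : Set M) (t : ℝ) : Set E :=
  {w | w ∈ X t ∧ ev w ∈ D}

/-- The trivialisations of a family `ev : X t → M` over `D₊` (a cell) and `D₋`, with fibre `Om t`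
and bounded shift `c`. -/
structure Triv {E E' M : Type} [MetricSpace E] [MetricSpace E'] [MetricSpace M] (n : ℕ)
    (ev : E → M) (X : ℝ → Set E) (Om : ℝ → Set E') (c : ℝ) where
  c0 : 0 ≤ c
  Dp : Set M
  Dm : Set M
  closed_p : IsClosed Dp
  closed_m : IsClosed Dm
  union : Dp ∪ Dm = univ
  ev_cont : Continuous ev
  X_comp : ∀ t, 0 < t → IsCompact (X t)
  X_mono : ∀ s t, 0 < s → s ≤ t → X s ⊆ X t
  Om_comp : ∀ t, 0 < t → IsCompact (Om t)
  Om_mono : ∀ s t, 0 < s → s ≤ t → Om s ⊆ Om t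
  /-- over `D₋`: `X ~ Om` (conjugation with the tracks of a nullhomotopy of `D₋`) -/
  tm : SpIntl (ovr ev X Dm) (fun _ => ∅) Om (fun _ => ∅) c
  /-- over `D₊`: `(X over D₊, X over D₊ ∩ D₋) ~ Om × (I^n, ∂I^n)` -/
  tp : SpIntl (ovr ev X Dp) (ovr ev X (Dp ∩ Dm)) (fun t => cub n (Om t)) (fun t => bdc n (Om t)) c

end Vale.Agent.P216.Ch2.H901
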