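import Vale.Agent.P216.Ch2.Ns
import Vale.Agent.P216.Ch2.H901.Sp

/-!
# Interleavings of families of pairs (P216, block [WANG])

`PMr`, `PMa`: the persistence modules `H^q(A t, A' t)`, `H^q(A t)` of an increasing family.
`SpIntl.intl`: an interleaving up to homotopy gives `Intl (PMr A A' q) (PMr B B' q) c`.
-/

set_option linter.unusedVariables false

open Set

namespace Vale.Agent.P216.Ch2.H901

open Vale.Agent.P216.AS Vale.Agent.P216.Ch2.AS

variable {E E' E'' : Type} [PseudoMetricSpace E] [PseudoMetricSpace E'] [PseudoMetricSpace E'']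
  {k : Type} [Field k]

/-- An increasing family of sets, `t > 0`. -/
def Mono (A : ℝ → Set E) : Prop := ∀ s t, 0 < s → s ≤ t → A s ⊆ A t

/-! ### Homotopies of pairs -/

namespace Hp

variable {A A' : Set E} {B B' : Set E'} {C C' : Set E''} {f g h : E → E'}

/-- Homotopic maps induce the same pullback. -/
theorem pullR_eq (H : Hp A A' B B' f g) (hA : A' ⊆ A) (hf : IsMap (tr E) (tr E') A B f)
    (hf' : MapsTo f A' B') (hg : IsMap (tr E) (tr E') A B g) (hg' : MapsTo g A' B') (n : ℕ) :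
    pullR (on k) hf hA hf' n = pullR (on k) hg hA hg' n := by
  obtain ⟨D, hD, hD', h0, h1⟩ := H
  have e := pullR_homotopy (k := k) (χ := on k) hD hA hD' n
  rw [pullR_congr hf hD.zero hA hf' (hD' 0 ⟨le_rfl, zero_le_one⟩) fun x hx => (h0 hx).symm,
    pullR_congr hg hD.one hA hg' (hD' 1 ⟨zero_le_one, le_rfl⟩) fun x hx => (h1 hx).symm, e]

theorem mono {A₁ A₁' : Set E} {B₁ B₁' : Set E'} (H : Hp A A' B B' f g) (hA : A₁ ⊆ A)
    (hA' : A₁' ⊆ A') (hB : B ⊆ B₁) (hB' : B' ⊆ B₁') : Hp A₁ A₁' B₁ B₁' f g := by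
  obtain ⟨D, hD, hD', h0, h1⟩ := H
  exact ⟨D, hD.mono hA fun s hs x hx => hB (hD.mapsX s hs (hA hx)),
    fun s hs x hx => hB' (hD' s hs (hA' hx)), fun x hx => h0 (hA hx), fun x hx => h1 (hA hx)⟩

theorem symm (H : Hp A A' B B' f g) : Hp A A' B B' g f := by
  obtain ⟨D, hD, hD', h0, h1⟩ := H
  have hm : ∀ s ∈ Icc (0 : ℝ) 1, 1 - s ∈ Icc (0 : ℝ) 1 := fun s hs =>
    ⟨by linarith [hs.2], by linarith [hs.1]⟩
  refine ⟨fun s => D (1 - s), ⟨fun s hs => hD.mapsX _ (hm s hs), fun _ _ i => i.elim,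
    fun ε hε => ?_⟩, fun s hs => hD' _ (hm s hs), fun x hx => ?_, fun x hx => ?_⟩
  · obtain ⟨δ, hδ, h⟩ := hD.uc ε hε
    refine ⟨δ, hδ, fun s hs t ht x hx y hy hst hxy => h _ (hm s hs) _ (hm t ht) x hx y hy ?_ hxy⟩
    have : 1 - s - (1 - t) = -(s - t) := by ring
    rwa [this, abs_neg]
  · change D (1 - 0) x = g x
    rw [sub_zero]; exact h1 hx
  · change D (1 - 1) x = f x
    rw [sub_self]; exact h0 hx

/-- Precomposition with a map of pairs. -/
theorem comp_right {g₀ g₁ : E' → E''} (H : Hp B B' C C' g₀ g₁) (hf : IsMap (tr E) (tr E') A B f)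
    (hf' : MapsTo f A' B') : Hp A A' C C' (g₀ ∘ f) (g₁ ∘ f) := by
  obtain ⟨D, hD, hD', h0, h1⟩ := H
  refine ⟨fun s => D s ∘ f, ⟨fun s hs x hx => hD.mapsX s hs (hf.mapsX hx), fun _ _ i => i.elim,
    fun ε hε => ?_⟩, fun s hs x hx => hD' s hs (hf' hx), fun x hx => h0 (hf.mapsX hx),
    fun x hx => h1 (hf.mapsX hx)⟩
  obtain ⟨δ, hδ, h⟩ := hD.uc ε hε
  obtain ⟨η, hη, h'⟩ := hf.uc δ hδ
  exact ⟨min δ η, lt_min hδ hη, fun s hs t ht x hx y hy hst hxy =>
    h s hs t ht _ (hf.mapsX hx) _ (hf.mapsX hy) (hst.trans_le (min_le_left _ _))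
      (h' x hx y hy (hxy.trans_le (min_le_right _ _)))⟩

/-- Postcomposition with a map of pairs. -/
theorem comp_left {g : E' → E''} {f₀ f₁ : E → E'} (H : Hp A A' B B' f₀ f₁)
    (hg : IsMap (tr E') (tr E'') B C g) (hg' : MapsTo g B' C') :
    Hp A A' C C' (g ∘ f₀) (g ∘ f₁) := by
  obtain ⟨D, hD, hD', h0, h1⟩ := H
  refine ⟨fun s => g ∘ D s, ⟨fun s hs x hx => hg.mapsX (hD.mapsX s hs hx), fun _ _ i => i.elim,
    fun ε hε => ?_⟩, fun s hs x hx => hg' (hD' s hs hx), fun x hx => ?_, fun x hx => ?_⟩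
  · obtain ⟨δ, hδ, h⟩ := hg.uc ε hε
    obtain ⟨η, hη, h'⟩ := hD.uc δ hδ
    exact ⟨η, hη, fun s hs t ht x hx y hy hst hxy =>
      h _ (hD.mapsX s hs hx) _ (hD.mapsX t ht hy) (h' s hs t ht x hx y hy hst hxy)⟩
  · change g (D 0 x) = g (f₀ x)
    rw [h0 hx]
  · change g (D 1 x) = g (f₁ x)
    rw [h1 hx]

end Hp

/-! ### Persistence modules of families -/

/-- The persistence module `H^q(A t, A' t)`. -/
noncomputable def PMr (k : Type) [Field k] (A A' : ℝ → Set E) (hA : Mono A) (hA' : Mono A')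
    (q : ℕ) : PM k where
  V t := Hr (tr E) (on k) (A t) (A' t) q
  ρ s t hs h := resR (hA s t hs h) (hA' s t hs h) q
  ρ_refl s hs h x := Hinc_refl _ _ x
  ρ_comp r s t hr hs h₁ h₂ h₃ x := resR_resR _ _ _ _ x

/-- The persistence module `H^q(A t)`. -/
noncomputable def PMa (k : Type) [Field k] (A : ℝ → Set E) (hA : Mono A) (q : ℕ) : PM k where
  V t := Ha (tr E) (on k) (A t) q
  ρ s t hs h := res (hA s t hs h) q
  ρ_refl s hs h x := res_refl _ x
  ρ_comp r s t hr hs h₁ h₂ h₃ x := res_res _ _ x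

/-- A natural isomorphism of persistence modules. -/
structure PMIso (A B : PM k) where
  e : ∀ t, 0 < t → A.V t ≃ₗ[k] B.V t
  nat : ∀ s t hs ht (h : s ≤ t) x, B.ρ s t hs h (e t ht x) = e s hs (A.ρ s t hs h x)

namespace PMIso

variable {A B C : PM k}

theorem nat_symm (I : PMIso A B) (s t : ℝ) (hs : 0 < s) (ht : 0 < t) (h : s ≤ t) (x : B.V t) :
    A.ρ s t hs h ((I.e t ht).symm x) = (I.e s hs).symm (B.ρ s t hs h x) := by
  rw [LinearEquiv.eq_symm_apply, ← I.nat s t hs ht h, LinearEquiv.apply_symm_apply]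

/-- The inverse isomorphism. -/
def symm (I : PMIso A B) : PMIso B A where
  e t ht := (I.e t ht).symm
  nat s t hs ht h x := by
    rw [LinearEquiv.eq_symm_apply, ← I.nat s t hs ht h, LinearEquiv.apply_symm_apply]

/-- The composition. -/
def trans (I : PMIso A B) (J : PMIso B C) : PMIso A C where
  e t ht := (I.e t ht).trans (J.e t ht)
  nat s t hs ht h x := by
    rw [LinearEquiv.trans_apply, LinearEquiv.trans_apply, J.nat s t hs ht h, I.nat s t hs ht h]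

/-- Transport of interleavings. -/
noncomputable def intl {A' B' : PM k} {c : ℝ} (I : PMIso A A') (J : PMIso B B') (hc : 0 ≤ c)
    (K : Intl A' B' c) : Intl A B c where
  f s t hs h := (J.e s hs).symm.toLinearMap ∘ₗ K.f s t hs h ∘ₗ (I.e t (by linarith)).toLinearMap
  g s t hs h := (I.e s hs).symm.toLinearMap ∘ₗ K.g s t hs h ∘ₗ (J.e t (by linarith)).toLinearMap
  f_nat s t s' t' hs ht hs' h h₁ h₂ h₃ x := by
    simp only [LinearMap.comp_apply, LinearEquiv.coe_coe]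
    have ht' : 0 < t' := by linarith
    rw [J.nat_symm s' s hs' hs h₁, ← I.nat t t' ht ht' h₂,
      K.f_nat s t s' t' hs ht hs' h h₁ h₂ h₃]
  g_nat s t s' t' hs ht hs' h h₁ h₂ h₃ x := by
    simp only [LinearMap.comp_apply, LinearEquiv.coe_coe]
    have ht' : 0 < t' := by linarith
    rw [I.nat_symm s' s hs' hs h₁, ← J.nat t t' ht ht' h₂,
      K.g_nat s t s' t' hs ht hs' h h₁ h₂ h₃]
  gf r s t hr hs h₁ h₂ h₃ x := by
    simp only [LinearMap.comp_apply, LinearEquiv.coe_coe, LinearEquiv.apply_symm_apply]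
    have ht : 0 < t := by linarith
    rw [K.gf r s t hr hs h₁ h₂ h₃, I.nat r t hr ht h₃, LinearEquiv.symm_apply_apply]
  fg r s t hr hs h₁ h₂ h₃ x := by
    simp only [LinearMap.comp_apply, LinearEquiv.coe_coe, LinearEquiv.apply_symm_apply]
    have ht : 0 < t := by linarith
    rw [K.fg r s t hr hs h₁ h₂ h₃, J.nat r t hr ht h₃, LinearEquiv.symm_apply_apply]

end PMIso

/-! ### Interleaving -/

section Intl

variable {A A' : ℝ → Set E} {B B' : ℝ → Set E'} {c : ℝ}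

theorem IsMap.toSub {X : Set E} {X' Y' : Set E'} {f : E → E'} (h : IsMap (tr E) (tr E') X X' f)
    (hY : X' ⊆ Y') : IsMap (tr E) (tr E') X Y' f :=
  h.mono le_rfl fun _ hx => hY (h.mapsX hx)

namespace SpIntl

variable (S : SpIntl A A' B B' c)

/-- The inverse interleaving. -/
def symm : SpIntl B B' A A' c where
  f := S.g
  g := S.f
  f_map := S.g_map
  f_sub := S.g_sub
  g_map := S.f_map
  g_sub := S.f_sub
  f_nat := S.g_nat
  g_nat := S.f_nat
  gf := S.fg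
  fg := S.gf

theorem map_f (hB : Mono B) (hc : 0 ≤ c) {s t : ℝ} (hs : 0 < s) (h : s + c ≤ t) :
    IsMap (tr E) (tr E') (A s) (B t) (S.f s) :=
  IsMap.toSub (S.f_map s hs) (hB _ _ (by linarith) h)

theorem sub_f (hB' : Mono B') (hc : 0 ≤ c) {s t : ℝ} (hs : 0 < s) (h : s + c ≤ t) :
    MapsTo (S.f s) (A' s) (B' t) := fun _ hx => hB' _ _ (by linarith) h (S.f_sub s hs hx)

/-- The pullback from `B t` to `A s`. -/
noncomputable def pf (k : Type) [Field k] (hB : Mono B) (hB' : Mono B') (hAA : ∀ t, A' t ⊆ A t)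
    (hc : 0 ≤ c) (q : ℕ) (s t : ℝ) (hs : 0 < s) (h : s + c ≤ t) :
    Hr (tr E') (on k) (B t) (B' t) q →ₗ[k] Hr (tr E) (on k) (A s) (A' s) q :=
  pullR (on k) (S.map_f hB hc hs h) (hAA s) (S.sub_f hB' hc hs h) q

theorem pf_nat (hA : Mono A) (hA' : Mono A') (hB : Mono B) (hB' : Mono B')
    (hAA : ∀ t, A' t ⊆ A t) (hc : 0 ≤ c) (q : ℕ) (s t s' t' : ℝ) (hs : 0 < s) (ht : 0 < t)
    (hs' : 0 < s') (h : s + c ≤ t) (h₁ : s' ≤ s) (h₂ : t ≤ t') (h₃ : s' + c ≤ t')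
    (x : Hr (tr E') (on k) (B t') (B' t') q) :
    resR (hA s' s hs' h₁) (hA' s' s hs' h₁) q (S.pf k hB hB' hAA hc q s t hs h
      (resR (hB t t' ht h₂) (hB' t t' ht h₂) q x)) = S.pf k hB hB' hAA hc q s' t' hs' h₃ x := by
  have hmap : IsMap (tr E) (tr E') (A s') (B t') (S.f s) :=
    (S.map_f hB hc hs (h.trans h₂)).mono (hA s' s hs' h₁)
      fun x hx => hB _ _ (by linarith) (h.trans h₂) ((S.f_map s hs).mapsX (hA s' s hs' h₁ hx))
  have hsub : MapsTo (S.f s) (A' s') (B' t') :=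
    fun x hx => S.sub_f hB' hc hs (h.trans h₂) (hA' s' s hs' h₁ hx)
  have e1 : resR (hA s' s hs' h₁) (hA' s' s hs' h₁) q (S.pf k hB hB' hAA hc q s t hs h
      (resR (hB t t' ht h₂) (hB' t t' ht h₂) q x)) = pullR (on k) hmap (hAA s') hsub q x := by
    obtain ⟨y, hy, rfl⟩ := H.exists_mk x
    rfl
  rw [e1]
  have H := (S.f_nat s' s hs' h₁).mono le_rfl le_rfl (hB _ _ (by linarith) (h.trans h₂))
    (hB' _ _ (by linarith) (h.trans h₂))
  exact (LinearMap.congr_fun (H.pullR_eq (k := k) (hAA s') (S.map_f hB hc hs' h₃)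
    (S.sub_f hB' hc hs' h₃) hmap hsub q) x).symm

theorem pf_pf (hA : Mono A) (hA' : Mono A') (hB : Mono B) (hB' : Mono B')
    (hAA : ∀ t, A' t ⊆ A t) (hBB : ∀ t, B' t ⊆ B t) (hc : 0 ≤ c) (q : ℕ) (r s t : ℝ)
    (hr : 0 < r) (hs : 0 < s) (h₁ : r + c ≤ s) (h₂ : s + c ≤ t) (h₃ : r ≤ t)
    (x : Hr (tr E) (on k) (A t) (A' t) q) :
    S.pf k hB hB' hAA hc q r s hr h₁ (S.symm.pf k hA hA' hBB hc q s t hs h₂ x) =
      resR (hA r t hr h₃) (hA' r t hr h₃) q x := by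
  have m1 := S.map_f hB hc hr h₁
  have s1 := S.sub_f hB' hc hr h₁
  have m2 := S.symm.map_f hA hc hs h₂
  have s2 := S.symm.sub_f hA' hc hs h₂
  have e1 : S.pf k hB hB' hAA hc q r s hr h₁ (S.symm.pf k hA hA' hBB hc q s t hs h₂ x) =
      pullR (on k) (m2.comp m1) (hAA r) (s2.comp s1) q x := by
    obtain ⟨y, hy, rfl⟩ := H.exists_mk x
    rfl
  rw [e1]
  -- `id ~ g (r + c) ∘ f r ~ g s ∘ f r`
  have mid : IsMap (tr E) (tr E) (A r) (A t) id := IsMap.id_of_subset (hA r t hr h₃)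
  have sid : MapsTo id (A' r) (A' t) := fun x hx => hA' r t hr h₃ hx
  have m3 : IsMap (tr E) (tr E) (A r) (A t) (S.g (r + c) ∘ S.f r) :=
    (S.symm.map_f hA hc (by linarith) (by linarith)).comp (S.f_map r hr)
  have s3 : MapsTo (S.g (r + c) ∘ S.f r) (A' r) (A' t) :=
    (S.symm.sub_f hA' hc (by linarith) (by linarith)).comp (S.f_sub r hr)
  have H1 : Hp (A r) (A' r) (A t) (A' t) id (S.g (r + c) ∘ S.f r) :=
    (S.gf r hr).mono le_rfl le_rfl (hA _ _ (by linarith) (by linarith))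
      (hA' _ _ (by linarith) (by linarith))
  have H2 : Hp (A r) (A' r) (A t) (A' t) (S.g (r + c) ∘ S.f r) (S.g s ∘ S.f r) :=
    ((S.g_nat (r + c) s (by linarith) h₁).comp_right (S.f_map r hr) (S.f_sub r hr)).mono le_rfl
      le_rfl (hA _ _ (by linarith) h₂) (hA' _ _ (by linarith) h₂)
  have e2 := LinearMap.congr_fun (H1.pullR_eq (k := k) (hAA r) mid sid m3 s3 q) x
  have e3 := LinearMap.congr_fun (H2.pullR_eq (k := k) (hAA r) m3 s3 (m2.comp m1)
    (s2.comp s1) q) x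
  rw [e3] at e2
  exact e2.symm

/-- **Interleaved families of pairs have interleaved cohomology.** -/
noncomputable def intl (k : Type) [Field k] (hA : Mono A) (hA' : Mono A') (hB : Mono B)
    (hB' : Mono B') (hAA : ∀ t, A' t ⊆ A t) (hBB : ∀ t, B' t ⊆ B t) (hc : 0 ≤ c) (q : ℕ) :
    Intl (PMr k A A' hA hA' q) (PMr k B B' hB hB' q) c where
  f s t hs h := S.symm.pf k hA hA' hBB hc q s t hs h
  g s t hs h := S.pf k hB hB' hAA hc q s t hs h
  f_nat s t s' t' hs ht hs' h h₁ h₂ h₃ x :=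
    S.symm.pf_nat hB hB' hA hA' hBB hc q s t s' t' hs ht hs' h h₁ h₂ h₃ x
  g_nat s t s' t' hs ht hs' h h₁ h₂ h₃ x :=
    S.pf_nat hA hA' hB hB' hAA hc q s t s' t' hs ht hs' h h₁ h₂ h₃ x
  gf r s t hr hs h₁ h₂ h₃ x := S.pf_pf hA hA' hB hB' hAA hBB hc q r s t hr hs h₁ h₂ h₃ x
  fg r s t hr hs h₁ h₂ h₃ x := S.symm.pf_pf hB hB' hA hA' hBB hAA hc q r s t hr hs h₁ h₂ h₃ x

end SpIntl

end Intl

end Vale.Agent.P216.Ch2.H901
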