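import Vale.Agent.P216.Ch2.Ns
import Vale.Agent.P216.Ch2.H901.PM

/-!
# Section 1c of note 11516: the algebra (`PropW4`)
-/

namespace Vale.Agent.P216.Ch2.H901

variable {k : Type} [Field k]

namespace PM

variable {A B : PM k}

theorem Eph.mono {b b' : ℝ} (h : A.Eph b) (hb : b ≤ b') : A.Eph b' :=
  fun s t hs hst hb' x => h s t hs hst (by linarith) x

theorem Line.mono {o : A.Fam} {b b' : ℝ} (h : A.Line o b) (hb : b ≤ b') : A.Line o b' :=
  fun s t hs hst hb' x => h s t hs hst (by linarith) x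

/-- The zero family. -/
def Fam.zero (A : PM k) : A.Fam := ⟨fun _ _ => 0, fun _ _ _ _ => map_zero _⟩

/-- The image of a family under a natural map. -/
def Fam.map (o : A.Fam) (φ : ∀ t, 0 < t → A.V t →ₗ[k] B.V t)
    (hφ : ∀ s t hs ht (h : s ≤ t) x, B.ρ s t hs h (φ t ht x) = φ s hs (A.ρ s t hs h x)) : B.Fam :=
  ⟨fun t ht => φ t ht (o.z t ht), fun s t hs h => by rw [hφ, o.comp]⟩

/-- A family with values in a line is a multiple of the generating family. -/
theorem Fam.exists_scalar (o z : A.Fam) (h : ∀ s hs, ∃ a : k, z.z s hs = a • o.z s hs) :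
    ∃ a : k, ∀ s hs, z.z s hs = a • o.z s hs := by
  by_cases h0 : ∃ s hs, o.z s hs ≠ 0
  · obtain ⟨s₀, hs₀, hne⟩ := h0
    obtain ⟨a, ha⟩ := h s₀ hs₀
    refine ⟨a, fun s hs => ?_⟩
    rcases le_total s s₀ with hle | hle
    · rw [← z.comp s s₀ hs hle, ha, map_smul, o.comp]
    · obtain ⟨a', ha'⟩ := h s hs
      have h1 : z.z s₀ hs₀ = a' • o.z s₀ hs₀ := by
        rw [← z.comp s₀ s hs₀ hle, ha', map_smul, o.comp]
      have h2 : a' = a := by
        rw [ha] at h1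
        have h3 : (a - a') • o.z s₀ hs₀ = 0 := by rw [sub_smul, h1, sub_self]
        rcases smul_eq_zero.1 h3 with h4 | h4
        · exact (sub_eq_zero.1 h4).symm
        · exact absurd h4 hne
      rw [ha', h2]
  · push Not at h0
    refine ⟨0, fun s hs => ?_⟩
    obtain ⟨a, ha⟩ := h s hs
    rw [ha, h0 s hs, smul_zero, zero_smul]

/-- A family in a module which is a line up to short bars is a multiple of the generator. -/
theorem Line.fam {o : A.Fam} {b : ℝ} (h : A.Line o b) (hb : 0 ≤ b) (z : A.Fam) :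
    ∃ a : k, ∀ s hs, z.z s hs = a • o.z s hs := by
  refine Fam.exists_scalar o z fun s hs => ?_
  obtain ⟨a, ha⟩ := h s (s + b) hs (by linarith) le_rfl (z.z (s + b) (by linarith))
  exact ⟨a, by rw [← ha, z.comp]⟩

theorem Eph.fam {b : ℝ} (h : A.Eph b) (hb : 0 ≤ b) (z : A.Fam) (s : ℝ) (hs : 0 < s) :
    z.z s hs = 0 := by
  rw [← z.comp s (s + b) hs (by linarith)]
  exact h s (s + b) hs (by linarith) le_rfl _

theorem Eph.bfb {b : ℝ} (h : A.Eph b) : A.BFB b := fun s t hs hst hb x =>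
  ⟨Fam.zero A, h s t hs hst hb x⟩

theorem Line.bfb {o : A.Fam} {b : ℝ} (h : A.Line o b) : A.BFB b := by
  intro s t hs hst hb x
  obtain ⟨a, ha⟩ := h s t hs hst hb x
  refine ⟨⟨fun t ht => a • o.z t ht, fun s t hs h => ?_⟩, ha⟩
  rw [map_smul, o.comp]

end PM

namespace Intl

variable {A B : PM k} {c : ℝ} (I : Intl A B c)

/-- The inverse interleaving. -/
def symm : Intl B A c where
  f := I.g
  g := I.f
  f_nat := I.g_nat
  g_nat := I.f_nat
  gf := I.fg
  fg := I.gf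

theorem f_ρ {s t t' : ℝ} (hs : 0 < s) (ht : 0 < t) (h : s + c ≤ t) (h₂ : t ≤ t')
    (h₃ : s + c ≤ t') (x : A.V t') : I.f s t hs h (A.ρ t t' ht h₂ x) = I.f s t' hs h₃ x := by
  have := I.f_nat s t s t' hs ht hs h le_rfl h₂ h₃ x
  rwa [B.ρ_refl] at this

theorem ρ_f {s s' t : ℝ} (hs : 0 < s) (hs' : 0 < s') (h : s + c ≤ t) (h₁ : s' ≤ s)
    (h₃ : s' + c ≤ t) (hc : 0 ≤ c) (x : A.V t) :
    B.ρ s' s hs' h₁ (I.f s t hs h x) = I.f s' t hs' h₃ x := by
  have := I.f_nat s t s' t hs (by linarith) hs' h h₁ le_rfl h₃ x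
  rwa [A.ρ_refl] at this

/-- The image of a family. -/
noncomputable def fFam (hc : 0 ≤ c) (o : A.Fam) : B.Fam where
  z s hs := I.f s (s + c) hs le_rfl (o.z (s + c) (by linarith))
  comp s t hs h := by
    have ht : 0 < t := hs.trans_le h
    rw [I.ρ_f ht hs le_rfl h (by linarith) hc]
    have := o.comp (s + c) (t + c) (by linarith) (by linarith)
    rw [← this, I.f_ρ hs (by linarith) le_rfl (by linarith) (by linarith)]

theorem f_fam (hc : 0 ≤ c) (o : A.Fam) {s t : ℝ} (hs : 0 < s) (ht : 0 < t) (h : s + c ≤ t) :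
    I.f s t hs h (o.z t ht) = (I.fFam hc o).z s hs := by
  change _ = I.f s (s + c) hs le_rfl (o.z (s + c) (by linarith))
  rw [← o.comp (s + c) t (by linarith) h, I.f_ρ hs (by linarith) le_rfl h h]

theorem f_f_fam (hc : 0 ≤ c) (o : B.Fam) {s t : ℝ} (hs : 0 < s) (ht : 0 < t) (h : s + c ≤ t) :
    I.f s t hs h ((I.symm.fFam hc o).z t ht) = o.z s hs := by
  change I.f s t hs h (I.g t (t + c) ht le_rfl (o.z (t + c) (by linarith))) = _
  rw [I.fg s t (t + c) hs ht h le_rfl (by linarith), o.comp]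

include I in
theorem eph {b : ℝ} (hc : 0 ≤ c) (hb : 0 ≤ b) (h : B.Eph b) : A.Eph (b + 2 * c) := by
  intro s t hs hst hb' x
  rw [← I.gf s (s + c) t hs (by linarith) le_rfl (by linarith) hst x]
  have h2 := h (s + c) (t - c) (by linarith) (by linarith) (by linarith)
    (I.f (t - c) t (by linarith) (by linarith) x)
  rw [I.ρ_f (by linarith) (by linarith) (by linarith) (by linarith) (by linarith) hc] at h2
  rw [h2, map_zero]

/-- The line of a family, transported. -/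
theorem line {b : ℝ} (hc : 0 ≤ c) (hb : 0 ≤ b) {o : B.Fam} (h : B.Line o b) :
    A.Line (I.symm.fFam hc o) (b + 2 * c) := by
  intro s t hs hst hb' x
  obtain ⟨a, ha⟩ := h (s + c) (t - c) (by linarith) (by linarith) (by linarith)
    (I.f (t - c) t (by linarith) (by linarith) x)
  rw [I.ρ_f (by linarith) (by linarith) (by linarith) (by linarith) (by linarith) hc] at ha
  refine ⟨a, ?_⟩
  rw [← I.gf s (s + c) t hs (by linarith) le_rfl (by linarith) hst x, ha, map_smul]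
  rfl

end Intl

section W4

variable {m : ℕ} {G X : ℕ → PM k} {B C B0 c : ℝ}

theorem not_dvd_y (hm : 2 ≤ m) (j : ℕ) : ¬ m ∣ m * j + (m + 1) := by
  intro h
  have h1 : m ∣ m * (j + 1) + 1 := by
    have : m * (j + 1) + 1 = m * j + (m + 1) := by ring
    rwa [this]
  have h2 : m ∣ 1 := (Nat.dvd_add_right (Dvd.intro _ rfl)).1 h1
  have := Nat.le_of_dvd one_pos h2
  omega

namespace Wang

variable (w : Wang m G X c) (b : Based m G B C B0)

include w in
theorem c_nonneg : 0 ≤ c := w.c0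

include w b

/-- `P q` has short bars except in the degrees `m * j + (m + 1)`. -/
theorem P_eph (hB : 0 ≤ B) {q : ℕ} (hq : ∀ j, q ≠ m * j + (m + 1)) :
    (w.P q).Eph (B + 2 * c) := by
  rcases Nat.lt_or_ge m q with h | h
  · obtain ⟨q', rfl⟩ : ∃ q', q = q' + (m + 1) := ⟨q - (m + 1), by omega⟩
    refine (w.iP q').eph w.c0 hB (b.van q' ?_)
    rintro ⟨j, rfl⟩
    exact hq j rfl
  · exact (w.P0 q h).mono (by linarith [w.c0])

theorem P_eph_mul (hm : 2 ≤ m) (hB : 0 ≤ B) (j : ℕ) : (w.P (m * j)).Eph (B + 2 * c) :=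
  w.P_eph b hB fun i h => not_dvd_y hm i (h ▸ Dvd.intro _ rfl)

theorem Q_eph (hB : 0 ≤ B) {q : ℕ} (hq : ¬ m ∣ q) : (w.Q q).Eph (B + 2 * c) :=
  (w.iQ q).eph w.c0 hB (b.van q hq)

omit w b in
/-- The family `om j` in `Q`. -/
noncomputable def κ (j : ℕ) : (w.Q (m * j)).Fam := (w.iQ (m * j)).symm.fFam w.c0 (b.om j)

/-- The family `om j` in `P`. -/
noncomputable def κP (j : ℕ) : (w.P (m * j + (m + 1))).Fam :=
  (w.iP (m * j)).symm.fFam w.c0 (b.om j)

theorem Q_line (hB : 0 ≤ B) (j : ℕ) : (w.Q (m * j)).Line (w.κ b j) (B + 2 * c) :=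
  (w.iQ _).line w.c0 hB (b.line j)

theorem P_line (hB : 0 ≤ B) (j : ℕ) : (w.P (m * j + (m + 1))).Line (w.κP b j) (B + 2 * c) :=
  (w.iP _).line w.c0 hB (b.line j)

/-- The family `δ (κ j)`. -/
noncomputable def dκ (j : ℕ) : (w.P (m * j + 1)).Fam :=
  (w.κ b j).map (fun t ht => w.δ (m * j) t ht) (w.δ_nat (m * j))

omit b in
/-- The kernel of `X → Q` restricts to zero if `P` has short bars. -/
theorem ker_res {q : ℕ} {b' : ℝ} (hP : (w.P q).Eph b') {s t : ℝ} (hs : 0 < s) (ht : 0 < t)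
    (hst : s ≤ t) (hb : s + b' ≤ t) (x : (X q).V t) (hx : w.β q t ht x = 0) :
    (X q).ρ s t hs hst x = 0 := by
  obtain ⟨p, rfl⟩ := (w.ex1 q t ht x).1 hx
  rw [w.α_nat q s t hs ht hst, hP s t hs hst hb, map_zero]

/-- (1): the degrees without global classes. -/
theorem X_eph (hB : 0 ≤ B) {q : ℕ} (hq : ¬ m ∣ q) (hq' : ∀ j, q ≠ m * j + (m + 1)) :
    (X q).Eph (2 * (B + 2 * c)) := by
  have hc := w.c0
  intro s t hs hst hb x
  have ht : 0 < t := hs.trans_le hst
  have hs1 : 0 < s + (B + 2 * c) := by linarith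
  rw [← (X q).ρ_comp s (s + (B + 2 * c)) t hs hs1 (by linarith) (by linarith) hst x]
  refine w.ker_res (w.P_eph b hB hq') hs hs1 (by linarith) le_rfl _ ?_
  rw [← w.β_nat q _ t hs1 ht (by linarith)]
  exact w.Q_eph b hB hq _ t hs1 _ (by linarith) _

/-- The classes `y j`. -/
noncomputable def yF (j : ℕ) : (X (m * j + (m + 1))).Fam :=
  (w.κP b j).map (fun t ht => w.α _ t ht) (fun s t hs ht h x => w.α_nat _ s t hs ht h x)

/-- (3) -/
theorem X_line_y (hm : 2 ≤ m) (hB : 0 ≤ B) (j : ℕ) :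
    (X (m * j + (m + 1))).Line (w.yF b j) (2 * (B + 2 * c)) := by
  have hc := w.c0
  intro s t hs hst hb x
  have ht : 0 < t := hs.trans_le hst
  have hs1 : 0 < s + (B + 2 * c) := by linarith
  have h1 : w.β _ _ hs1 ((X (m * j + (m + 1))).ρ (s + (B + 2 * c)) t hs1 (by linarith) x) = 0 := by
    rw [← w.β_nat _ _ t hs1 ht (by linarith)]
    exact w.Q_eph b hB (not_dvd_y hm j) _ t hs1 _ (by linarith) _
  obtain ⟨p, hp⟩ := (w.ex1 _ _ hs1 _).1 h1
  obtain ⟨a, ha⟩ := w.P_line b hB j s (s + (B + 2 * c)) hs (by linarith) le_rfl p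
  refine ⟨a, ?_⟩
  rw [← (X _).ρ_comp s (s + (B + 2 * c)) t hs hs1 (by linarith) (by linarith) hst x, ← hp,
    w.α_nat _ s _ hs hs1 (by linarith), ha, map_smul]
  rfl

theorem κ_eq (j : ℕ) {s t : ℝ} (hs : 0 < s) (ht : 0 < t) (h : s + c ≤ t) :
    (w.iQ (m * j)).g s t hs h ((b.om j).z t ht) = (w.κ b j).z s hs :=
  (w.iQ (m * j)).symm.f_fam w.c0 (b.om j) hs ht h

theorem κP_eq (j : ℕ) {s t : ℝ} (hs : 0 < s) (ht : 0 < t) (h : s + c ≤ t) :
    (w.iP (m * j)).g s t hs h ((b.om j).z t ht) = (w.κP b j).z s hs :=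
  (w.iP (m * j)).symm.f_fam w.c0 (b.om j) hs ht h

theorem f_κ (j : ℕ) {s t : ℝ} (hs : 0 < s) (ht : 0 < t) (h : s + c ≤ t) :
    (w.iQ (m * j)).f s t hs h ((w.κ b j).z t ht) = (b.om j).z s hs :=
  (w.iQ (m * j)).f_f_fam w.c0 (b.om j) hs ht h

/-- `δ (κ (j+1))` as a family in degree `m * j + (m + 1)`. -/
noncomputable def dκ' (j : ℕ) : (w.P (m * j + (m + 1))).Fam := w.dκ b (j + 1)

theorem exists_cf (hB : 0 ≤ B) (j : ℕ) :
    ∃ a : k, ∀ s hs, ((w.iP (m * j)).fFam w.c0 (w.dκ' b j)).z s hs = a • (b.om j).z s hs :=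
  (b.line j).fam hB _

/-- The structure constants of `th`. -/
noncomputable def cf (hB : 0 ≤ B) : ℕ → k
  | 0 => 0
  | j + 1 => (w.exists_cf b hB j).choose

theorem cf_succ (hB : 0 ≤ B) (j : ℕ) (s : ℝ) (hs : 0 < s) :
    ((w.iP (m * j)).fFam w.c0 (w.dκ' b j)).z s hs = w.cf b hB (j + 1) • (b.om j).z s hs :=
  (w.exists_cf b hB j).choose_spec s hs

theorem th_eq (hB : 0 ≤ B) (j : ℕ) (r s t : ℝ) (hr : 0 < r) (hs : 0 < s) (ht : 0 < t)
    (h₁ : r + c ≤ s) (h₂ : s + c ≤ t) :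
    (w.iP (m * j)).f r s hr h₁ (w.δ (m * (j + 1)) s hs ((w.iQ (m * (j + 1))).g s t hs h₂
      ((b.om (j + 1)).z t ht))) = w.cf b hB (j + 1) • (b.om j).z r hr := by
  rw [w.κ_eq b (j + 1) hs ht h₂, ← w.cf_succ b hB j r hr,
    ← (w.iP (m * j)).f_fam w.c0 (w.dκ' b j) hr hs h₁]
  rfl

/-- `δ (κ j) = 0` if `cf j = 0`. -/
theorem dκ_zero (hm : 2 ≤ m) (hB : 0 ≤ B) (j : ℕ) (h : w.cf b hB j = 0) (s : ℝ) (hs : 0 < s) :
    (w.dκ b j).z s hs = 0 := by
  have hc := w.c0
  cases j with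
  | zero => exact (w.P0 (m * 0 + 1) (by omega)).fam (by linarith) (w.dκ b 0) s hs
  | succ j =>
    have h1 := (w.iP (m * j)).gf s (s + c) (s + c + c) hs (by linarith) le_rfl le_rfl (by linarith)
      ((w.dκ' b j).z (s + c + c) (by linarith))
    rw [(w.iP (m * j)).f_fam w.c0 (w.dκ' b j) (by linarith) (by linarith) le_rfl,
      w.cf_succ b hB j, h, zero_smul, map_zero, (w.dκ' b j).comp] at h1
    exact h1.symm

theorem exists_ext (hm : 2 ≤ m) (hB : 0 ≤ B) (j : ℕ) (hj : w.cf b hB j = 0) (t : ℝ)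
    (ht : 0 < t) : ∃ x : (X (m * j)).V t, w.β (m * j) t ht x = (w.κ b j).z t ht :=
  (w.ex2 (m * j) t ht _).1 (w.dκ_zero b hm hB j hj t ht)

/-- Two extensions have the same restriction. -/
theorem ext_unique (hm : 2 ≤ m) (hB : 0 ≤ B) (j : ℕ) {s t : ℝ} (hs : 0 < s) (ht : 0 < t)
    (hst : s ≤ t) (h : s + (B + 2 * c) ≤ t)
    (x y : (X (m * j)).V t) (hxy : w.β (m * j) t ht x = w.β (m * j) t ht y) :
    (X (m * j)).ρ s t hs hst x = (X (m * j)).ρ s t hs hst y := by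
  rw [← sub_eq_zero, ← map_sub]
  refine w.ker_res (w.P_eph_mul b hm hB j) hs ht hst h _ ?_
  rw [map_sub, hxy, sub_self]

/-- The class `x j` if `cf j = 0`. -/
noncomputable def xF (hm : 2 ≤ m) (hB : 0 ≤ B) (j : ℕ) (hj : w.cf b hB j = 0) :
    (X (m * j)).Fam where
  z s hs := (X (m * j)).ρ s (s + (B + 2 * c)) hs (by linarith [w.c0])
    (w.exists_ext b hm hB j hj (s + (B + 2 * c)) (by linarith [w.c0])).choose
  comp s t hs h := by
    have hc := w.c0
    have ht : 0 < t := hs.trans_le h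
    have h1 : 0 < s + (B + 2 * c) := by linarith
    have h2 : 0 < t + (B + 2 * c) := by linarith
    rw [(X (m * j)).ρ_comp s t (t + (B + 2 * c)) hs ht h (by linarith) (by linarith),
      ← (X (m * j)).ρ_comp s (s + (B + 2 * c)) (t + (B + 2 * c)) hs h1 (by linarith)
        (by linarith) (by linarith)]
    refine w.ext_unique b hm hB j hs h1 (by linarith) le_rfl _ _ ?_
    rw [(w.exists_ext b hm hB j hj _ h1).choose_spec, ← w.β_nat _ _ _ h1 h2 (by linarith),
      (w.exists_ext b hm hB j hj _ h2).choose_spec, (w.κ b j).comp]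

theorem β_xF (hm : 2 ≤ m) (hB : 0 ≤ B) (j : ℕ) (hj : w.cf b hB j = 0) (s : ℝ) (hs : 0 < s) :
    w.β (m * j) s hs ((w.xF b hm hB j hj).z s hs) = (w.κ b j).z s hs := by
  have hc := w.c0
  have h1 : 0 < s + (B + 2 * c) := by linarith
  change w.β (m * j) s hs ((X (m * j)).ρ s (s + (B + 2 * c)) hs _
    (w.exists_ext b hm hB j hj (s + (B + 2 * c)) _).choose) = _
  rw [← w.β_nat _ _ _ hs h1, (w.exists_ext b hm hB j hj _ h1).choose_spec, (w.κ b j).comp]

theorem line_xF (hm : 2 ≤ m) (hB : 0 ≤ B) (j : ℕ) (hj : w.cf b hB j = 0) :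
    (X (m * j)).Line (w.xF b hm hB j hj) (2 * (B + 2 * c)) := by
  have hc := w.c0
  intro s t hs hst hb x
  have ht : 0 < t := hs.trans_le hst
  have hs1 : 0 < s + (B + 2 * c) := by linarith
  obtain ⟨a, ha⟩ := w.Q_line b hB j (s + (B + 2 * c)) t hs1 (by linarith) (by linarith)
    (w.β _ t ht x)
  refine ⟨a, ?_⟩
  rw [← (X _).ρ_comp s (s + (B + 2 * c)) t hs hs1 (by linarith) (by linarith) hst x]
  rw [w.ext_unique b hm hB j hs hs1 (by linarith) le_rfl _
    (a • (w.xF b hm hB j hj).z (s + (B + 2 * c)) hs1), map_smul, (w.xF b hm hB j hj).comp]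
  rw [← w.β_nat _ _ _ hs1 ht (by linarith), ha, map_smul, w.β_xF]

/-- If `cf (j+1) ≠ 0` then `X` has short bars in degree `m * (j+1)`. -/
theorem eph_xF (hm : 2 ≤ m) (hB : 0 ≤ B) (hC : 0 ≤ C) (j : ℕ) (hj : w.cf b hB (j + 1) ≠ 0) :
    (X (m * (j + 1))).Eph (2 * B + C + 6 * c) := by
  have hc := w.c0
  intro s t hs hst hb x
  have ht : 0 < t := hs.trans_le hst
  -- levels: `s < s4 < s3 < s2 < s1 < t`
  have h4 : 0 < s + (B + 2 * c) := by linarith
  have h3 : 0 < s + (B + 2 * c) + c := by linarith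
  have h2 : 0 < s + (B + 2 * c) + c + C := by linarith
  have h1 : 0 < s + (B + 2 * c) + c + C + c := by linarith
  obtain ⟨a, ha⟩ := w.Q_line b hB (j + 1) (s + (B + 2 * c) + c + C + c) t h1 (by linarith)
    (by linarith) (w.β _ t ht x)
  have hδ : a • (w.dκ b (j + 1)).z _ h1 = 0 := by
    change a • w.δ _ _ h1 ((w.κ b (j + 1)).z _ h1) = 0
    rw [← map_smul, ← ha, ← w.δ_nat _ _ t h1 ht (by linarith),
      (w.ex2 _ t ht).apply_apply_eq_zero x, map_zero]
  have hδ' : a • (w.cf b hB (j + 1) • (b.om j).z _ h2) = 0 := by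
    rw [← w.cf_succ b hB j _ h2, ← (w.iP (m * j)).f_fam w.c0 (w.dκ' b j) h2 h1 le_rfl, ← map_smul]
    have : a • (w.dκ' b j).z _ h1 = 0 := hδ
    rw [this, map_zero]
  have hcase : a • (w.κ b (j + 1)).z _ h4 = 0 := by
    rcases smul_eq_zero.1 hδ' with h | h
    · rw [h, zero_smul]
    · rcases smul_eq_zero.1 h with h' | h'
      · exact absurd h' hj
      · have h5 := b.down j _ _ h3 h2 le_rfl h'
        rw [← w.κ_eq b (j + 1) h4 h3 le_rfl, h5, map_zero, smul_zero]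
  rw [← (X _).ρ_comp s _ t hs h4 (by linarith) (by linarith) hst x]
  refine w.ker_res (w.P_eph_mul b hm hB (j + 1)) hs h4 (by linarith) le_rfl _ ?_
  rw [← w.β_nat _ _ _ h4 ht (by linarith), ← (w.Q _).ρ_comp _ _ t h4 h1 (by linarith)
    (by linarith) (by linarith), ha, map_smul, (w.κ b (j + 1)).comp]
  exact hcase

/-- `y j = 0` if `cf (j+1) ≠ 0`. -/
theorem yF_zero (hB : 0 ≤ B) (j : ℕ) (hj : w.cf b hB (j + 1) ≠ 0) (s : ℝ) (hs : 0 < s) :
    (w.yF b j).z s hs = 0 := by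
  have hc := w.c0
  have h1 : 0 < s + c := by linarith
  have h2 : 0 < s + c + c := by linarith
  have e1 : w.cf b hB (j + 1) • (w.κP b j).z s hs = (w.dκ' b j).z s hs := by
    have h3 := (w.iP (m * j)).gf s (s + c) (s + c + c) hs h1 le_rfl le_rfl (by linarith)
      ((w.dκ' b j).z _ h2)
    rw [(w.iP (m * j)).f_fam w.c0 (w.dκ' b j) h1 h2 le_rfl, w.cf_succ b hB j, map_smul,
      (w.dκ' b j).comp, w.κP_eq b j hs h1 le_rfl] at h3
    exact h3
  have e2 : w.cf b hB (j + 1) • (w.yF b j).z s hs = 0 := by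
    change w.cf b hB (j + 1) • w.α _ s hs ((w.κP b j).z s hs) = 0
    rw [← map_smul, e1]
    exact (w.ex3 (m * (j + 1)) s hs).apply_apply_eq_zero _
  rcases smul_eq_zero.1 e2 with h | h
  · exact absurd h hj
  · exact h

theorem xF_ne (hm : 2 ≤ m) (hB : 0 ≤ B) (j : ℕ) (hj : w.cf b hB j = 0) {s t : ℝ} (hs : 0 < s)
    (ht : 0 < t) (h : s + c ≤ t) (hne : (b.om j).z s hs ≠ 0) :
    (w.xF b hm hB j hj).z t ht ≠ 0 := by
  intro h0
  apply hne
  rw [← w.f_κ b j hs ht h, ← w.β_xF b hm hB j hj, h0, map_zero, map_zero]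

theorem om_ne_of_xF (hm : 2 ≤ m) (hB : 0 ≤ B) (j : ℕ) (hj : w.cf b hB j = 0) {s t : ℝ}
    (hs : 0 < s) (ht : 0 < t) (h : s + (B + 3 * c) ≤ t)
    (hne : (w.xF b hm hB j hj).z s hs ≠ 0) : (b.om j).z t ht ≠ 0 := by
  have hc := w.c0
  intro h0
  apply hne
  have h1 : 0 < s + (B + 2 * c) := by linarith
  rw [← (w.xF b hm hB j hj).comp s (s + (B + 2 * c)) hs (by linarith)]
  refine w.ker_res (w.P_eph_mul b hm hB j) hs h1 (by linarith) le_rfl _ ?_
  rw [w.β_xF, ← w.κ_eq b j h1 ht (by linarith), h0, map_zero]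

end Wang

/-- **W4.** -/
theorem propW4 : PropW4 := by
  intro m hm B C B0 c hB hC hc
  refine ⟨2 * B + C + 6 * c, ?_⟩
  intro k _ G X w b
  classical
  refine ⟨{
    cf := w.cf b hB
    cf0 := rfl
    th := w.th_eq b hB
    x := fun j => if h : w.cf b hB j = 0 then w.xF b hm hB j h else PM.Fam.zero _
    y := w.yF b
    x_om := ?_
    y_def := ?_
    eph := fun q hq hq' => (w.X_eph b hB hq hq').mono (by linarith)
    line_x := ?_
    line_y := fun j => (w.X_line_y b hm hB j).mono (by linarith)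
    x_zero := ?_
    y_zero := fun j hj t ht => w.yF_zero b hB j hj t ht
    x_ne := ?_
    om_ne := ?_ }⟩
  · intro j hj s t hs ht h
    rw [dif_pos hj, w.β_xF, w.f_κ b j hs ht h]
  · intro j s t hs ht h
    rw [w.κP_eq b j hs ht h]
    rfl
  · intro j
    by_cases h : w.cf b hB j = 0
    · rw [dif_pos h]
      exact (w.line_xF b hm hB j h).mono (by linarith)
    · rw [dif_neg h]
      cases j with
      | zero => exact absurd rfl h
      | succ j => exact fun s t hs hst hb x => ⟨0, by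
          rw [w.eph_xF b hm hB hC j h s t hs hst hb x, zero_smul]⟩
  · intro j hj t ht
    rw [dif_neg hj]
    rfl
  · intro j hj s t hs ht h hne
    rw [dif_pos hj]
    exact w.xF_ne b hm hB j hj hs ht (by linarith) hne
  · intro j s t hs ht h hne
    by_cases hj : w.cf b hB j = 0
    · rw [dif_pos hj] at hne
      exact w.om_ne_of_xF b hm hB j hj hs ht (by linarith) hne
    · rw [dif_neg hj] at hne
      exact absurd rfl hne

end W4

end Vale.Agent.P216.Ch2.H901
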