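import Vale.Agent.P216.Ch2.Ns
import Vale.Agent.P216.Ch2.H83.Les
import Vale.Agent.P216.Ch2.H901.Fam
import Vale.Agent.P216.Ch2.H901.Susp
import Vale.Agent.P216.Ch2.H901.W4

/-!
# The Wang sequence with bounded shifts (P216, block [WANG], W3)

`wang : Triv (m + 1) ev X Om c → Wang m (H^*(Om)) (H^*(X)) c`.
-/

set_option linter.unusedVariables false

open Set

namespace Vale.Agent.P216.Ch2.H901

open Vale.Agent.P216.AS Vale.Agent.P216.Ch2.AS Vale.Agent.P216.Ch2.H83

variable {k : Type} [Field k]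

/-! ### The iterated suspension -/

section SusN

theorem bdc_subset {E : Type} : ∀ (n : ℕ) (Z : Set E), bdc n Z ⊆ cub n Z
  | 0, _ => empty_subset _
  | n + 1, Z => bcyl_subset (bdc_subset n Z)

theorem cub_mono {E : Type} {Z Z' : Set E} (h : Z ⊆ Z') : ∀ n, cub n Z ⊆ cub n Z'
  | 0 => h
  | n + 1 => prod_mono_left (cub_mono h n)

theorem bdc_mono {E : Type} {Z Z' : Set E} (h : Z ⊆ Z') : ∀ n, bdc n Z ⊆ bdc n Z'
  | 0 => subset_rfl
  | n + 1 => union_subset_union (prod_mono_left (cub_mono h n)) (prod_mono_left (bdc_mono h n))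

variable {E : Type} [MetricSpace E]

/-- `H^{q+n}(Z × (I^n, ∂I^n)) ≃ H^q(Z)`. -/
noncomputable def susN (h2 : Ok k) (Z : Set E) (q : ℕ) : ∀ n : ℕ,
    Hr (tr (Cu E n)) (on k) (cub n Z) (bdc n Z) (q + n) ≃ₗ[k] Hr (tr E) (on k) Z ∅ q
  | 0 => LinearEquiv.refl k _
  | n + 1 => (LinearEquiv.ofBijective (sus h2 (cub n Z) (bdc n Z) (q + n))
      (sus_bijective h2 (bdc_subset n Z) (q + n))).trans (susN h2 Z q n)

theorem susN_nat (h2 : Ok k) {Z Z' : Set E} (h : Z' ⊆ Z) (q : ℕ) : ∀ (n : ℕ)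
    (x : Hr (tr (Cu E n)) (on k) (cub n Z) (bdc n Z) (q + n)),
    (resR h subset_rfl q : Hr (tr E) (on k) Z ∅ q →ₗ[k] Hr (tr E) (on k) Z' ∅ q)
      (susN h2 Z q n x) = susN h2 Z' q n (resR (cub_mono h n) (bdc_mono h n) (q + n) x)
  | 0, x => rfl
  | n + 1, x => by
    have e := sus_resR h2 (cub_mono h n) (bdc_mono h n) (q + n) (cub_mono h (n + 1))
      (bdc_mono h (n + 1)) x
    change (resR h subset_rfl q : Hr (tr E) (on k) Z ∅ q →ₗ[k] Hr (tr E) (on k) Z' ∅ q)
      (susN h2 Z q n (sus h2 (cub n Z) (bdc n Z) (q + n) x)) =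
      susN h2 Z' q n (sus h2 (cub n Z') (bdc n Z') (q + n) (resR _ _ (q + n + 1) x))
    rw [susN_nat h2 h q n, ← e]
    rfl

/-- `H^q(Z × (I^n, ∂I^n)) = 0` for `q < n`. -/
theorem cub_low (h2 : Ok k) (Z : Set E) : ∀ (n q : ℕ), q < n →
    ∀ x : Hr (tr (Cu E n)) (on k) (cub n Z) (bdc n Z) q, x = 0
  | 0, q, h, _ => absurd h (by omega)
  | n + 1, 0, _, x => cyl_zero h2 x
  | n + 1, q + 1, h, x => sus_injective h2 (bdc_subset n Z) q
      ((cub_low h2 Z n q (by omega) _).trans (map_zero (sus h2 (cub n Z) (bdc n Z) q)).symm)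

end SusN

/-! ### Transport of the Wang data -/

namespace Wang

variable {m : ℕ} {G G' X X' : ℕ → PM k} {c : ℝ}

/-- Transport along isomorphisms. -/
noncomputable def congr (w : Wang m G X c) (eG : ∀ q, PMIso (G q) (G' q))
    (eX : ∀ q, PMIso (X q) (X' q)) : Wang m G' X' c where
  c0 := w.c0
  P := w.P
  Q := w.Q
  α q t ht := ((eX q).e t ht).toLinearMap ∘ₗ w.α q t ht
  β q t ht := w.β q t ht ∘ₗ ((eX q).e t ht).symm.toLinearMap
  δ := w.δ
  α_nat q s t hs ht h x := by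
    simp only [LinearMap.comp_apply, LinearEquiv.coe_coe]
    rw [(eX q).nat s t hs ht h, w.α_nat q s t hs ht h]
  β_nat q s t hs ht h x := by
    simp only [LinearMap.comp_apply, LinearEquiv.coe_coe]
    rw [w.β_nat q s t hs ht h, (eX q).nat_symm s t hs ht h]
  δ_nat := w.δ_nat
  ex1 q t ht x := by
    simp only [LinearMap.comp_apply, LinearEquiv.coe_coe]
    rw [w.ex1 q t ht ((eX q).e t ht |>.symm x)]
    constructor
    · rintro ⟨y, hy⟩
      exact ⟨y, by simp [hy]⟩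
    · rintro ⟨y, hy⟩
      exact ⟨y, by simp [← hy]⟩
  ex2 q t ht x := by
    rw [w.ex2 q t ht x]
    constructor
    · rintro ⟨y, hy⟩
      exact ⟨(eX q).e t ht y, by simp [hy]⟩
    · rintro ⟨y, hy⟩
      exact ⟨(eX q).e t ht |>.symm y, hy⟩
  ex3 q t ht x := by
    simp only [LinearMap.comp_apply, LinearEquiv.coe_coe]
    rw [LinearEquiv.map_eq_zero_iff]
    exact w.ex3 q t ht x
  iQ q := PMIso.intl ⟨fun t ht => LinearEquiv.refl k _, fun _ _ _ _ _ _ => rfl⟩
    (eG q).symm w.c0 (w.iQ q)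
  iP q := PMIso.intl ⟨fun t ht => LinearEquiv.refl k _, fun _ _ _ _ _ _ => rfl⟩
    (eG q).symm w.c0 (w.iP q)
  P0 := w.P0

end Wang

/-! ### The Wang data of a trivialisation -/

section W3

variable {E E' M : Type} [MetricSpace E] [MetricSpace E'] [MetricSpace M] {ev : E → M}
  {X : ℝ → Set E} {Om : ℝ → Set E'} {c : ℝ}

theorem mono_empty {E : Type} : Mono (E := E) (fun _ => (∅ : Set E)) := fun _ _ _ _ => subset_rfl

/-- `H^*(A t, ∅) ≅ H^*(A t)`. -/
noncomputable def isoEmpty (k : Type) [Field k] (A : ℝ → Set E) (hA : Mono A) (q : ℕ) :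
    PMIso (PMr k A (fun _ => ∅) hA mono_empty q) (PMa k A hA q) where
  e t ht := (absE k (A t) q).symm
  nat s t hs ht h x := absE_symm_nat k (hA s t hs h) q x

omit [MetricSpace M] in
theorem mono_ovr (hX : Mono X) (D : Set M) : Mono (ovr ev X D) := fun s t hs h =>
  ovr_mono (hX s t hs h) (subset_refl D)

omit [MetricSpace E'] in
theorem mono_cub (n : ℕ) (h : Mono Om) : Mono fun t => cub n (Om t) := fun s t hs hst =>
  cub_mono (h s t hs hst) n

omit [MetricSpace E'] in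
theorem mono_bdc (n : ℕ) (h : Mono Om) : Mono fun t => bdc n (Om t) := fun s t hs hst =>
  bdc_mono (h s t hs hst) n

/-- `H^{q+n}(Om t × (I^n, ∂I^n)) ≅ H^q(Om t)`. -/
noncomputable def isoSus (h2 : Ok k) (h : Mono Om) (n q : ℕ) :
    PMIso (PMr k (fun t => cub n (Om t)) (fun t => bdc n (Om t)) (mono_cub n h) (mono_bdc n h)
      (q + n)) (PMr k Om (fun _ => ∅) h mono_empty q) where
  e t ht := susN h2 (Om t) q n
  nat s t hs ht hst x := susN_nat h2 (h s t hs hst) q n x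

/-- The identity isomorphism. -/
def isoRefl (A : PM k) : PMIso A A := ⟨fun t ht => LinearEquiv.refl k _, fun _ _ _ _ _ _ => rfl⟩

namespace Triv

variable {m : ℕ} (T : Triv (m + 1) ev X Om c)

/-- Strong excision. -/
noncomputable def isoExc (h2 : Ok k) (q : ℕ) :
    PMIso (PMr k X (ovr ev X T.Dm) T.X_mono (mono_ovr T.X_mono _) q)
      (PMr k (ovr ev X T.Dp) (ovr ev X (T.Dp ∩ T.Dm)) (mono_ovr T.X_mono _)
        (mono_ovr T.X_mono _) q) where
  e t ht := excE h2 T.ev_cont T.closed_p T.closed_m T.union (T.X_comp t ht) q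
  nat s t hs ht h x := excE_nat h2 T.ev_cont T.closed_p T.closed_m T.union (T.X_comp s hs)
    (T.X_comp t ht) (T.X_mono s t hs h) q x

/-- The interleaving of the relative groups with `H^*(Om × (I^n, ∂I^n))`. -/
noncomputable def iP0 (h2 : Ok k) (q : ℕ) :
    Intl (PMr k X (ovr ev X T.Dm) T.X_mono (mono_ovr T.X_mono _) q)
      (PMr k (fun t => cub (m + 1) (Om t)) (fun t => bdc (m + 1) (Om t))
        (mono_cub (m + 1) T.Om_mono) (mono_bdc (m + 1) T.Om_mono) q) c :=
  PMIso.intl (T.isoExc h2 q) (isoRefl _) T.c0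
    (T.tp.intl k (mono_ovr T.X_mono _) (mono_ovr T.X_mono _) (mono_cub (m + 1) T.Om_mono)
      (mono_bdc (m + 1) T.Om_mono) (fun t => ovr_mono subset_rfl inter_subset_left)
      (fun t => bdc_subset _ _) T.c0 q)

/-- The Wang data, relative form of the absolute groups. -/
noncomputable def wang0 (h2 : Ok k) :
    Wang m (fun q => PMr k Om (fun _ => ∅) T.Om_mono mono_empty q)
      (fun q => PMr k X (fun _ => ∅) T.X_mono mono_empty q) c where
  c0 := T.c0
  P q := PMr k X (ovr ev X T.Dm) T.X_mono (mono_ovr T.X_mono _) q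
  Q q := PMr k (ovr ev X T.Dm) (fun _ => ∅) (mono_ovr T.X_mono _) mono_empty q
  α q t ht := lesA k (X t) (ovr ev X T.Dm t) q
  β q t ht := lesB k (ovr_sub ev X T.Dm t) q
  δ q t ht := lesD k (X t) (ovr ev X T.Dm t) q
  α_nat q s t hs ht h x := lesA_nat k (T.X_mono s t hs h) (mono_ovr T.X_mono _ s t hs h) q x
  β_nat q s t hs ht h x := lesB_nat k (ovr_sub ev X T.Dm t) (ovr_sub ev X T.Dm s)
    (T.X_mono s t hs h) (mono_ovr T.X_mono _ s t hs h) q x
  δ_nat q s t hs ht h x := lesD_nat k (T.X_mono s t hs h) (mono_ovr T.X_mono _ s t hs h) q x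
  ex1 q t ht := les_ex1 k (ovr_sub ev X T.Dm t) q
  ex2 q t ht := les_ex2 k (ovr_sub ev X T.Dm t) q
  ex3 q t ht := les_ex3 k (ovr_sub ev X T.Dm t) q
  iQ q := T.tm.intl k (mono_ovr T.X_mono _) mono_empty T.Om_mono mono_empty
    (fun t => empty_subset _) (fun t => empty_subset _) T.c0 q
  iP q := PMIso.intl (isoRefl _) (isoSus h2 T.Om_mono (m + 1) q).symm T.c0
    (T.iP0 h2 (q + (m + 1)))
  P0 q hq := by
    have h := (T.iP0 h2 q).eph T.c0 le_rfl
      (fun s t hs hst _ x => cub_low h2 (Om s) (m + 1) q (by omega) _)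
    rwa [zero_add] at h

/-- **The Wang data of a trivialisation.** -/
noncomputable def wang (h2 : Ok k) :
    Wang m (fun q => PMa k Om T.Om_mono q) (fun q => PMa k X T.X_mono q) c :=
  (T.wang0 h2).congr (fun q => isoEmpty k Om T.Om_mono q) (fun q => isoEmpty k X T.X_mono q)

end Triv

/-- **Section 1c of note 11516**: the stable cohomology of the free loops from the stable
cohomology of the based loops. The constant does not depend on the field. -/
theorem free_of_triv {m : ℕ} (hm : 2 ≤ m) (T : Triv (m + 1) ev X Om c) (B C B0 : ℝ) (hB : 0 ≤ B)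
    (hC : 0 ≤ C) : ∃ B' : ℝ, ∀ (k : Type) [Field k] (h2 : Ok k)
      (b : Based m (fun q => PMa k Om T.Om_mono q) B C B0), Nonempty (Free (T.wang h2) b B') := by
  obtain ⟨B', h⟩ := propW4 m hm B C B0 c hB hC T.c0
  exact ⟨B', fun k _ h2 b => h k _ _ (T.wang h2) b⟩

end W3

end Vale.Agent.P216.Ch2.H901
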