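import Vale.Agent.P216.Ch2.Ns
import Vale.Agent.P216.Ch2.H901.W3

/-!
# Pullbacks by general maps, on the pieces of the Wang sequence (P216)

Naturality of `lesA`, `lesB`, `lesD`, `absE`, `susN` for pullbacks by maps of pairs.
-/

set_option linter.unusedVariables false

open Set

namespace Vale.Agent.P216.Ch2.H901

open Vale.Agent.P216.AS Vale.Agent.P216.Ch2.AS Vale.Agent.P216.Ch2.H83

variable {k : Type} [Field k]

section Les

variable {E E' : Type} [PseudoMetricSpace E] [PseudoMetricSpace E'] {X A : Set E} {X' A' : Set E'}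
  {f : E → E'}

theorem absE_pull (hf : IsMap (tr E) (tr E') X X' f) (hs : MapsTo f (∅ : Set E) (∅ : Set E'))
    (q : ℕ) (x : Ha (tr E') (on k) X' q) :
    pullR (on k) hf (empty_subset X) hs q (absE k X' q x) =
      absE k X q (pull (on k) hf q x) := by
  obtain ⟨c, hc, rfl⟩ := H.exists_mk x
  rfl

theorem absE_symm_pull (hf : IsMap (tr E) (tr E') X X' f) (hs : MapsTo f (∅ : Set E) (∅ : Set E'))
    (q : ℕ) (x : Hr (tr E') (on k) X' ∅ q) :
    pull (on k) hf q ((absE k X' q).symm x) =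
      (absE k X q).symm (pullR (on k) hf (empty_subset X) hs q x) := by
  obtain ⟨c, hc, rfl⟩ := H.exists_mk x
  rfl

theorem lesA_pull (hf : IsMap (tr E) (tr E') X X' f) (hA : A ⊆ X) (hs : MapsTo f A A')
    (h0 : MapsTo f (∅ : Set E) (∅ : Set E')) (q : ℕ) (x : Hr (tr E') (on k) X' A' q) :
    pullR (on k) hf (empty_subset X) h0 q (lesA k X' A' q x) =
      lesA k X A q (pullR (on k) hf hA hs q x) := by
  obtain ⟨c, hc, rfl⟩ := H.exists_mk x
  rfl

theorem lesB_pull (hf : IsMap (tr E) (tr E') X X' f) (hf' : IsMap (tr E) (tr E') A A' f)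
    (h0 : MapsTo f (∅ : Set E) (∅ : Set E')) (hA : A ⊆ X) (hA' : A' ⊆ X') (q : ℕ)
    (x : Hr (tr E') (on k) X' ∅ q) :
    pullR (on k) hf' (empty_subset A) h0 q (lesB k hA' q x) =
      lesB k hA q (pullR (on k) hf (empty_subset X) h0 q x) := by
  obtain ⟨c, hc, rfl⟩ := H.exists_mk x
  rfl

theorem lesD_pull (hf : IsMap (tr E) (tr E') X X' f) (hf' : IsMap (tr E) (tr E') A A' f)
    (hA : A ⊆ X) (hs : MapsTo f A A') (h0 : MapsTo f (∅ : Set E) (∅ : Set E')) (q : ℕ)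
    (x : Hr (tr E') (on k) A' ∅ q) :
    pullR (on k) hf hA hs (q + 1) (lesD k X' A' q x) =
      lesD k X A q (pullR (on k) hf' (empty_subset A) h0 q x) := by
  obtain ⟨c, hc, rfl⟩ := H.exists_mk x
  refine H.mk_eq_mk.2 ?_
  change pbK k f (q + 1) ((ASK E' k).d q c) - (ASK E k).d q (pbK k f q c) ∈ _
  rw [pbK_d, sub_self]
  exact Submodule.zero_mem _

/-- Pullbacks commute with restrictions. -/
theorem pullR_resR {Y B : Set E} {Y' B' : Set E'} (hf : IsMap (tr E) (tr E') X X' f)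
    (hg : IsMap (tr E) (tr E') Y Y' f) (hA : A ⊆ X) (hs : MapsTo f A A') (hB : B ⊆ Y)
    (ht : MapsTo f B B') (h1 : Y ⊆ X) (h2 : B ⊆ A) (h1' : Y' ⊆ X') (h2' : B' ⊆ A') (q : ℕ)
    (x : Hr (tr E') (on k) X' A' q) :
    pullR (on k) hg hB ht q (resR h1' h2' q x) = resR h1 h2 q (pullR (on k) hf hA hs q x) := by
  obtain ⟨c, hc, rfl⟩ := H.exists_mk x
  rfl

end Les

section Cu

variable {E E' : Type} [MetricSpace E] [MetricSpace E']

/-- The map `f × id` of the cubes. -/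
def cuM {E E' : Type} (f : E → E') : ∀ n, Cu E n → Cu E' n
  | 0 => f
  | n + 1 => Prod.map (cuM f n) id

theorem isMap_cuM {Z : Set E} {Z' : Set E'} {f : E → E'} (h : IsMap (tr E) (tr E') Z Z' f) :
    ∀ n, IsMap (tr (Cu E n)) (tr (Cu E' n)) (cub n Z) (cub n Z') (cuM f n)
  | 0 => h
  | n + 1 => isMap_cyl (isMap_cuM h n)

omit [MetricSpace E] [MetricSpace E'] in
theorem mapsTo_cuM {Z : Set E} {Z' : Set E'} {f : E → E'} (h : MapsTo f Z Z') :
    ∀ n, MapsTo (cuM f n) (cub n Z) (cub n Z')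
  | 0 => h
  | n + 1 => fun _ hx => ⟨mapsTo_cuM h n hx.1, hx.2⟩

omit [MetricSpace E] [MetricSpace E'] in
theorem mapsTo_cuM_bdc {Z : Set E} {Z' : Set E'} {f : E → E'} (h : MapsTo f Z Z') :
    ∀ n, MapsTo (cuM f n) (bdc n Z) (bdc n Z')
  | 0 => fun _ hx => hx.elim
  | n + 1 => mapsTo_bcyl (mapsTo_cuM h n) (mapsTo_cuM_bdc h n)

/-- **The iterated suspension is natural.** -/
theorem susN_pull (h2 : Ok k) {Z : Set E} {Z' : Set E'} {f : E → E'}
    (h : IsMap (tr E) (tr E') Z Z' f) (h0 : MapsTo f (∅ : Set E) (∅ : Set E')) (q : ℕ) : ∀ (n : ℕ)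
    (hc : IsMap (tr (Cu E n)) (tr (Cu E' n)) (cub n Z) (cub n Z') (cuM f n))
    (hb : MapsTo (cuM f n) (bdc n Z) (bdc n Z'))
    (x : Hr (tr (Cu E' n)) (on k) (cub n Z') (bdc n Z') (q + n)),
    susN h2 Z q n (pullR (on k) hc (bdc_subset n Z) hb (q + n) x) =
      pullR (on k) h (empty_subset Z) h0 q (susN h2 Z' q n x)
  | 0, _, _, x => rfl
  | n + 1, hc, hb, x => by
    have e := sus_pullR h2 (isMap_cuM h n) (bdc_subset n Z) (mapsTo_cuM_bdc h.mapsX n) (q + n) x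
    change susN h2 Z q n (sus h2 (cub n Z) (bdc n Z) (q + n) (pullR (on k) hc _ hb (q + n + 1) x)) =
      pullR (on k) h (empty_subset Z) h0 q (susN h2 Z' q n (sus h2 (cub n Z') (bdc n Z') (q + n) x))
    rw [← susN_pull h2 h h0 q n (isMap_cuM h n) (mapsTo_cuM_bdc h.mapsX n), ← e]
    rfl

end Cu

end Vale.Agent.P216.Ch2.H901
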