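import Vale.Agent.P216.Ch2.Ns
import Vale.Agent.P216.Ch2.H901.WangPull

/-!
# The formula for the operator `th` of the Wang sequence of a trivialisation (P216)

`th om = susN (δ (pull of om along z ↦ tm.f (tp.g z) on Om × ∂I^n))`.
-/

set_option linter.unusedVariables false

open Set

namespace Vale.Agent.P216.Ch2.H901

open Vale.Agent.P216.AS Vale.Agent.P216.Ch2.AS Vale.Agent.P216.Ch2.H83

variable {k : Type} [Field k] {E E' M : Type} [MetricSpace E] [MetricSpace E'] [MetricSpace M]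
  {ev : E → M} {X : ℝ → Set E} {Om : ℝ → Set E'} {c : ℝ} {m : ℕ}

/-- The clutching map `z ↦ tm.f (tp.g z)` on `Om r × ∂I^n`. -/
theorem Triv.isMap_clutch (T : Triv (m + 1) ev X Om c) {r s t : ℝ} (hr : 0 < r) (hs : 0 < s)
    (h₁ : r + c ≤ s) (h₂ : s + c ≤ t) :
    IsMap (tr (Cu E' (m + 1))) (tr E') (bdc (m + 1) (Om r)) (Om t)
      (fun z => T.tm.f s (T.tp.g r z)) := by
  have hc := T.c0
  have m1 : IsMap (tr (Cu E' (m + 1))) (tr E) (bdc (m + 1) (Om r)) (ovr ev X T.Dm s)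
      (T.tp.g r) := (T.tp.g_map r hr).mono (bdc_subset _ _) fun x hx =>
    ovr_mono (T.X_mono _ _ (by linarith) h₁) inter_subset_right (T.tp.g_sub r hr hx)
  exact (T.tm.map_f T.Om_mono T.c0 hs h₂).comp m1

/-- **The formula for `th`.** -/
theorem Triv.th_formula (h2 : Ok k) (T : Triv (m + 1) ev X Om c) (q : ℕ) {r s t : ℝ}
    (hr : 0 < r) (hs : 0 < s) (h₁ : r + c ≤ s) (h₂ : s + c ≤ t)
    (hP : IsMap (tr (Cu E' (m + 1))) (tr E') (bdc (m + 1) (Om r)) (Om t)
      (fun z => T.tm.f s (T.tp.g r z))) (om : Ha (tr E') (on k) (Om t) (q + m)) :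
    ((T.wang h2).iP q).f r s hr h₁ ((T.wang h2).δ (q + m) s hs
      (((T.wang h2).iQ (q + m)).g s t hs h₂ om)) =
    (absE k (Om r) q).symm (susN h2 (Om r) q (m + 1) (lesD k (cub (m + 1) (Om r))
      (bdc (m + 1) (Om r)) (q + m) (absE k _ _ (pull (on k) hP (q + m) om)))) := by
  have hc := T.c0
  have hrs : X (r + c) ⊆ X s := T.X_mono _ _ (by linarith) h₁
  have m0 : IsMap (tr (Cu E' (m + 1))) (tr E) (cub (m + 1) (Om r)) (X s) (T.tp.g r) :=
    (T.tp.g_map r hr).mono le_rfl fun x hx => hrs ((T.tp.g_map r hr).mapsX hx).1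
  have s0 : MapsTo (T.tp.g r) (bdc (m + 1) (Om r)) (ovr ev X T.Dm s) := fun x hx =>
    ovr_mono hrs inter_subset_right (T.tp.g_sub r hr hx)
  have m1 : IsMap (tr (Cu E' (m + 1))) (tr E) (bdc (m + 1) (Om r)) (ovr ev X T.Dm s)
      (T.tp.g r) := m0.mono (bdc_subset _ _) s0
  have n0 : MapsTo (T.tp.g r) (∅ : Set (Cu E' (m + 1))) (∅ : Set E) := fun _ h => h.elim
  have l : ((T.wang h2).iP q).f r s hr h₁ ((T.wang h2).δ (q + m) s hs
      (((T.wang h2).iQ (q + m)).g s t hs h₂ om)) =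
    (absE k (Om r) q).symm (susN h2 (Om r) q (m + 1)
      (T.tp.symm.pf k (mono_ovr T.X_mono _) (mono_ovr T.X_mono _) (fun t => bdc_subset _ _) T.c0
        (q + m + 1) r s hr h₁ (resR (ovr_sub ev X T.Dp s)
          (ovr_mono subset_rfl inter_subset_right) (q + m + 1)
          (lesD k (X s) (ovr ev X T.Dm s) (q + m)
            (T.tm.pf k T.Om_mono mono_empty (fun t => empty_subset _) T.c0 (q + m) s t hs h₂
              (absE k (Om t) (q + m) om)))))) := rfl
  rw [l]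
  congr 2
  have e1 : ∀ y : Hr (tr E) (on k) (X s) (ovr ev X T.Dm s) (q + m + 1),
      T.tp.symm.pf k (mono_ovr T.X_mono _) (mono_ovr T.X_mono _) (fun t => bdc_subset _ _) T.c0
        (q + m + 1) r s hr h₁ (resR (ovr_sub ev X T.Dp s)
          (ovr_mono subset_rfl inter_subset_right) (q + m + 1) y) =
      pullR (on k) m0 (bdc_subset _ _) s0 (q + m + 1) y := by
    intro y
    obtain ⟨c, hc, rfl⟩ := H.exists_mk y
    rfl
  rw [e1, lesD_pull (k := k) m0 m1 (bdc_subset _ _) s0 n0]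
  congr 1
  obtain ⟨c, hc, rfl⟩ := H.exists_mk om
  rfl

end Vale.Agent.P216.Ch2.H901
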